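import Vale.Agent.P251.F.CobLoc
import Vale.Agent.P251.S.LimComplex

/-!
# P261, stage 2: the law rings `v_h⁻¹ Laz/(m, I_h^j)`

`m : ℕ` an integer (a power of `p`).  `IJm p m h j = (m) + I_h^j`, `QM p m h j = Laz/(m, I_h^j)`,
`NM p m h j = v_h⁻¹ Laz/(m, I_h^j)`, `towerM p m h w` the tower of the cobar complexes of weight `w`.
-/

namespace Vale.Agent.P261

open Vale.Agent.P251 Vale.Agent.P251.F Vale.Agent.P217 LawRing

section Nhj

variable (p m h j : ℕ)

/-- The ideal `(m) + I_h^j` of `Laz`. -/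
noncomputable def IJm : Ideal Laz := Ideal.span {(m : Laz)} ⊔ Laz.I p h ^ j

theorem IJm_vanish_iff {B : Type} [CommRing B] (x : Laz →+* B) :
    (∀ a ∈ IJm p m h j, x a = 0) ↔
      ((m : B) = 0 ∧ Ih p h (Laz.univ.map x) ^ j = ⊥) := by
  have h1 : (∀ a ∈ IJm p m h j, x a = 0) ↔ IJm p m h j ≤ RingHom.ker x := Iff.rfl
  have h2 : Laz.I p h ^ j ≤ RingHom.ker x ↔ Ih p h (Laz.univ.map x) ^ j = ⊥ := by
    rw [← Laz.I_map, ← Ideal.map_pow, Ideal.map_eq_bot_iff_le_ker]
  rw [h1, IJm, sup_le_iff, h2, Ideal.span_singleton_le_iff_mem, RingHom.mem_ker, map_natCast]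

theorem invariant_IJm [Fact p.Prime] : LawRing.Invariant (IJm p m h j) := by
  intro B _ f x hx
  rw [IJm_vanish_iff] at hx ⊢
  refine ⟨hx.1, ?_⟩
  have : Laz.univ.map (act f x) = f • Laz.univ.map x := law_act f x
  rw [this, Ih_smul, hx.2]

/-- `Laz/(m, I_h^j)`. -/
abbrev QM : Type := Laz ⧸ IJm p m h j

/-- `v_h⁻¹ Laz/(m, I_h^j)`. -/
abbrev NM : Type := Localization.Away (Ideal.Quotient.mk (IJm p m h j) (Laz.v p h))

noncomputable instance instLawRingQM [Fact p.Prime] : LawRing (QM p m h j) :=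
  LawRing.quotient _ (invariant_IJm p m h j)

theorem isUnit_act_vM [Fact p.Prime] (B : Type) [CommRing B] (f : InvSeries B)
    (x : QM p m h j →+* B) (hx : IsUnit (x (Ideal.Quotient.mk (IJm p m h j) (Laz.v p h)))) :
    IsUnit (act f x (Ideal.Quotient.mk (IJm p m h j) (Laz.v p h))) := by
  have h0 := (IJm_vanish_iff p m h j (x.comp (Ideal.Quotient.mk (IJm p m h j)))).1
    (fun a ha => by rw [RingHom.comp_apply, Ideal.Quotient.eq_zero_iff_mem.2 ha, map_zero])
  have h1 : (act f x).comp (Ideal.Quotient.mk (IJm p m h j)) =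
      Laz.lift (f • Laz.univ.map (x.comp (Ideal.Quotient.mk (IJm p m h j)))) := rfl
  rw [← RingHom.comp_apply, h1, Laz.lift_v]
  rw [← RingHom.comp_apply, Laz.map_v] at hx
  exact isUnit_vv_smul p h j _ f h0.2 hx

noncomputable instance instLawRingNM [Fact p.Prime] : LawRing (NM p m h j) :=
  LawRing.away _ (isUnit_act_vM p m h j)

end Nhj

section red

variable (p m h : ℕ) [Fact p.Prime]

theorem epi_QM (j : ℕ) : LawRing.Epi (QM p m h j) :=
  LawRing.epi_quotient LawRing.epi_laz _ (invariant_IJm p m h j)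

theorem epi_NM (j : ℕ) : LawRing.Epi (NM p m h j) :=
  LawRing.epi_away (epi_QM p m h j) _ (isUnit_act_vM p m h j)

omit [Fact p.Prime] in
theorem IJm_anti {j j' : ℕ} (hj : j ≤ j') : IJm p m h j' ≤ IJm p m h j :=
  sup_le_sup_left (Ideal.pow_le_pow_right hj) _

/-- The transition map `Laz/(m, I_h^{j'}) → Laz/(m, I_h^j)`. -/
noncomputable def QM.red {j j' : ℕ} (hj : j ≤ j') : QM p m h j' →+* QM p m h j :=
  Ideal.Quotient.factor (IJm_anti p m h hj)

/-- The transition map `v_h⁻¹ Laz/(m, I_h^{j'}) → v_h⁻¹ Laz/(m, I_h^j)`. -/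
noncomputable def NM.red {j j' : ℕ} (hj : j ≤ j') : NM p m h j' →+* NM p m h j :=
  IsLocalization.Away.lift (S := NM p m h j') (Ideal.Quotient.mk (IJm p m h j') (Laz.v p h))
    (g := (algebraMap (QM p m h j) (NM p m h j)).comp (QM.red p m h hj)) (by
      change IsUnit (algebraMap (QM p m h j) (NM p m h j)
        (Ideal.Quotient.mk (IJm p m h j) (Laz.v p h)))
      exact IsLocalization.Away.algebraMap_isUnit _)

theorem isLawHom_QM_red {j j' : ℕ} (hj : j ≤ j') : IsLawHom (QM.red p m h hj) :=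
  IsLawHom.of_epi (epi_QM p m h j') (by
    change (Laz.univ.map _).map _ = Laz.univ.map _
    rw [Law.map_map]
    rfl)

theorem isLawHom_NM_red {j j' : ℕ} (hj : j ≤ j') : IsLawHom (NM.red p m h hj) :=
  IsLawHom.of_epi (epi_NM p m h j') (by
    change ((Laz.univ.map _).map _).map _ = (Laz.univ.map _).map _
    rw [Law.map_map, NM.red, IsLocalization.Away.lift_comp, Law.map_map, Law.map_map]
    rfl)

theorem m_eq_zero_NM (j : ℕ) : (m : NM p m h j) = 0 := by
  have h1 : (m : QM p m h j) = 0 := by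
    have : (m : QM p m h j) = Ideal.Quotient.mk (IJm p m h j) (m : Laz) :=
      (map_natCast (Ideal.Quotient.mk (IJm p m h j)) m).symm
    rw [this, Ideal.Quotient.eq_zero_iff_mem]
    exact Ideal.mem_sup_left (Ideal.mem_span_singleton_self _)
  have h2 : (m : NM p m h j) = algebraMap (QM p m h j) (NM p m h j) (m : QM p m h j) :=
    (map_natCast (algebraMap (QM p m h j) (NM p m h j)) m).symm
  rw [h2, h1, map_zero]

/-- The tower `j ↦ C^s(v_h⁻¹ Laz/(m, I_h^{j+1}))_w` of cochain complexes. -/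
noncomputable def towerM (w : ℤ) : S.TowerCx.{0} where
  C s j := Cob.wt (NM p m h (j + 1)) s w
  d s j := ((Cob.d s).comp (Cob.wt (NM p m h (j + 1)) s w).subtype).codRestrict
    (Cob.wt (NM p m h (j + 1)) (s + 1) w) fun x => Cob.IsWt.d x.2
  r s j := (((Cob.mapRing (NM.red p m h (Nat.le_succ (j + 1))) s).toAddMonoidHom).comp
    (Cob.wt (NM p m h (j + 2)) s w).subtype).codRestrict
    (Cob.wt (NM p m h (j + 1)) s w) fun x => Cob.IsWt.mapRing (isLawHom_NM_red p m h _) x.2
  d_d _ _ x := Subtype.ext (Cob.d_d x.1)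
  d_r _ _ x := Subtype.ext (Cob.mapRing_d (isLawHom_NM_red p m h _) x.1).symm

end red

end Vale.Agent.P261
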