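import Vale.Agent.P251.S.ExactCouple
import Mathlib.Algebra.Module.BigOperators

/-!
# P261, stage 2 (K9): a bound for the exponent of `D^0` in a convergent exact couple

`Couple.Kill s n N`: `N` kills the cohomology of `E_1` in filtration `s` and stem `n`.
-/

universe u v

namespace Vale.Agent.P251.S

namespace Couple

variable (C : Couple.{u, v})

/-- The composite `D^s_n → D^0_n`. -/
def iz (n : ℤ) : ∀ s : ℕ, C.D s n →+ C.D 0 n
  | 0 => AddMonoidHom.id _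
  | s + 1 => (iz n s).comp (C.i s n)

lemma iz_succ (n : ℤ) (s : ℕ) (y : C.D (s + 1) n) : C.iz n (s + 1) y = C.iz n s (C.i s n y) := rfl

/-- `N` kills the cohomology of `E_1` in filtration `s` and stem `n`. -/
def Kill (n : ℤ) (N : ℤ) : ℕ → Prop
  | 0 => ∀ z : C.E 0 n, C.IsCocycle z → N • z = 0
  | s + 1 => ∀ z : C.E (s + 1) n, C.IsCocycle z → C.IsCobdy (N • z)

lemma kill_one_succ {n : ℤ} {s : ℕ} (h : C.Van s n) : C.Kill n 1 (s + 1) := by
  intro z hz
  rw [one_smul]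
  exact h z hz

lemma kill_step {n N : ℤ} {s : ℕ} (h : C.Kill n N s) (y : C.D s n) :
    ∃ y' : C.D (s + 1) n, C.iz n (s + 1) y' = N • C.iz n s y := by
  cases s with
  | zero =>
    have h1 : C.j 0 n (N • y) = 0 := by
      rw [map_zsmul]
      exact h _ (C.isCocycle_j y)
    obtain ⟨y', hy'⟩ := C.exact_j _ _ _ h1
    exact ⟨y', by rw [iz_succ, hy', map_zsmul]⟩
  | succ s =>
    obtain ⟨z, hz⟩ := h _ (C.isCocycle_j y)
    have h0 : C.j (s + 1) n (N • y - C.k s (n + 1) n rfl z) = 0 := by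
      rw [map_sub, map_zsmul, sub_eq_zero]
      exact hz.symm
    obtain ⟨y', hy'⟩ := C.exact_j _ _ _ h0
    refine ⟨y', ?_⟩
    rw [iz_succ, hy', map_sub, map_zsmul, iz_succ C n s (C.k s (n + 1) n rfl z), C.i_k, map_zero,
      sub_zero]

/-- If the cohomology of `E_1` in the stem `n` is concentrated in filtration `s₀`, where it is
killed by `N`, and the tower converges, then `N` kills `D^0`. -/
theorem smul_eq_zero_of_kill {n N : ℤ} (s₀ : ℕ) (h1 : ∀ s, s ≠ s₀ → C.Kill n 1 s)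
    (h2 : C.Kill n N s₀) (s₁ : ℕ) (hc : ∀ s, s₁ ≤ s → ∀ y : C.D (s + 1) n, C.i s n y = 0)
    (y : C.D 0 n) : N • y = 0 := by
  have a1 : ∀ s, s ≤ s₀ → ∃ y' : C.D s n, C.iz n s y' = y := by
    intro s
    induction s with
    | zero => exact fun _ => ⟨y, rfl⟩
    | succ s ih =>
      intro hs
      obtain ⟨y₁, hy₁⟩ := ih (by omega)
      obtain ⟨y₂, hy₂⟩ := C.kill_step (h1 s (by omega)) y₁
      exact ⟨y₂, by rw [hy₂, hy₁, one_smul]⟩
  have a2 : ∀ r, ∃ y' : C.D (s₀ + 1 + r) n, C.iz n (s₀ + 1 + r) y' = N • y := by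
    intro r
    induction r with
    | zero =>
      obtain ⟨y₁, hy₁⟩ := a1 s₀ le_rfl
      obtain ⟨y₂, hy₂⟩ := C.kill_step h2 y₁
      exact ⟨y₂, by rw [← hy₁]; exact hy₂⟩
    | succ r ih =>
      obtain ⟨y₁, hy₁⟩ := ih
      obtain ⟨y₂, hy₂⟩ := C.kill_step (h1 (s₀ + 1 + r) (by omega)) y₁
      exact ⟨y₂, by rw [← hy₁]; exact hy₂.trans (one_smul ℤ _)⟩
  obtain ⟨y', hy'⟩ := a2 (s₁ + 1)
  rw [← hy']
  change C.iz n (s₀ + 1 + s₁) (C.i (s₀ + 1 + s₁) n y') = 0
  rw [hc _ (by omega), map_zero]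

end Couple

end Vale.Agent.P251.S
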