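import Mathlib.NumberTheory.Padics.PadicIntegers

/-!
# P261, stage 2: a free `ℤ_p`-module with small reduction
-/

namespace Vale.Agent.P261

theorem rank_one {p : ℕ} [hpp : Fact p.Prime] {A B : Type*} [AddCommGroup A] [AddCommGroup B]
    {r : ℕ} (e : A ≃+ (Fin r → ℤ_[p])) (h : A →+ B) (hk : ∀ x, h x = 0 → ∃ y, x = p • y)
    (g : B → Fin p) (hg : Function.Injective g) (hA : ∃ x : A, x ≠ 0) :
    r = 1 ∧ Function.Surjective h ∧ Nat.card B = p := by
  obtain ⟨x, hx⟩ := hA
  have hr : 0 < r := by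
    rcases Nat.eq_zero_or_pos r with rfl | hr
    · exact absurd (e.injective (Subsingleton.elim _ _)) hx
    · exact hr
  let e₀ : A := e.symm (Pi.single ⟨0, hr⟩ 1)
  have hu : ¬ IsUnit ((p : ℕ) : ℤ_[p]) := PadicInt.prime_p.not_isUnit
  -- the coordinates of a multiple of `p`
  have hco : ∀ (x : A) (y : A) (j : Fin r), x = p • y → e x j = (p : ℤ_[p]) * e y j := by
    intro x y j hxy
    rw [hxy, map_nsmul, Pi.smul_apply, nsmul_eq_mul]
  have hinj : Function.Injective (fun c : Fin p => h ((c : ℕ) • e₀)) := by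
    have key : ∀ c c' : ℕ, c' ≤ c → c < p → h (c • e₀) = h (c' • e₀) → c = c' := by
      intro c c' hle hc hh
      have h1 : h ((c - c') • e₀) = 0 := by
        have h2 : c • e₀ = (c - c') • e₀ + c' • e₀ := by rw [← add_smul, Nat.sub_add_cancel hle]
        rw [h2, map_add] at hh
        exact add_eq_right.1 hh
      obtain ⟨y, hy⟩ := hk _ h1
      have h3 := hco _ y ⟨0, hr⟩ hy
      rw [map_nsmul, Pi.smul_apply, AddEquiv.apply_symm_apply, Pi.single_eq_same, nsmul_eq_mul,
        mul_one] at h3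
      have h4 : (p : ℤ_[p]) ∣ ((c - c' : ℕ) : ℤ_[p]) := ⟨_, h3⟩
      have h5 : p ∣ c - c' := by
        have h6 := PadicInt.norm_int_lt_one_iff_dvd (p := p) (((c - c' : ℕ) : ℤ))
        have h7 : ‖((((c - c' : ℕ) : ℤ)) : ℤ_[p])‖ < 1 := by
          rw [Int.cast_natCast]
          exact PadicInt.mem_nonunits.1 (fun hun => hu (isUnit_of_dvd_unit h4 hun))
        exact_mod_cast h6.1 h7
      have h8 := Nat.eq_zero_of_dvd_of_lt h5 (by omega)
      omega
    intro c c' hcc
    apply Fin.ext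
    rcases le_total (c' : ℕ) c with hle | hle
    · exact key _ _ hle c.2 hcc
    · exact (key _ _ hle c'.2 hcc.symm).symm
  have hsurj : ∀ b : B, ∃ c : Fin p, h ((c : ℕ) • e₀) = b := by
    have h1 : Function.Injective (fun c : Fin p => g (h ((c : ℕ) • e₀))) := hg.comp hinj
    have h2 := Finite.surjective_of_injective h1
    intro b
    obtain ⟨c, hc⟩ := h2 (g b)
    exact ⟨c, hg hc⟩
  refine ⟨?_, fun b => ?_, ?_⟩
  · by_contra hne
    have hr1 : 1 < r := by omega
    obtain ⟨c, hc⟩ := hsurj (h (e.symm (Pi.single ⟨1, hr1⟩ 1)))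
    have h1 : h (e.symm (Pi.single ⟨1, hr1⟩ 1) - (c : ℕ) • e₀) = 0 := by
      rw [map_sub, hc, sub_self]
    obtain ⟨y, hy⟩ := hk _ h1
    have h3 := hco _ y ⟨1, hr1⟩ hy
    rw [map_sub, map_nsmul, Pi.sub_apply, Pi.smul_apply, AddEquiv.apply_symm_apply,
      AddEquiv.apply_symm_apply, Pi.single_eq_same, Pi.single_eq_of_ne (by
        intro h; simpa using congrArg Fin.val h), smul_zero, sub_zero] at h3
    exact hu (IsUnit.of_mul_eq_one _ h3.symm)
  · obtain ⟨c, hc⟩ := hsurj b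
    exact ⟨_, hc⟩
  · rw [← Nat.card_eq_of_bijective _ ⟨hinj, hsurj⟩, Nat.card_eq_fintype_card, Fintype.card_fin]

end Vale.Agent.P261
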