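import Vale.Agent.P261.H468.K.MainK
import Vale.Agent.P261.H766.P4
import Vale.Agent.P261.H468.K.Rank

/-!
# P261, stage 2: the stems `0` and `-1`
-/

open CategoryTheory MonoidalCategory Limits Pretriangulated MonObj

set_option linter.unusedSectionVars false

universe v u

namespace Vale.Agent.P261

open Vale.Agent.P251 Vale.Agent.P251.T Vale.Agent.P251.M Vale.Agent.P251.S Vale.Agent.P251.F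
  Vale.Agent.P251.I Vale.Agent.P251.Z

variable {T : Type u} [Category.{v} T] [Preadditive T] [HasZeroObject T]
    [HasShift T ℤ] [∀ n : ℤ, (shiftFunctor T n).Additive] [Pretriangulated T] [IsTriangulated T]
    [MonoidalCategory T] [SymmetricCategory T] [TensorTriangulated T] [MonoidalClosed T]
    [HasCoproducts.{0} T] [HasProducts.{0} T] [StableCat T] [LocallySmall.{0} T]

/-- If `Hom (X⟦1⟧, L) → Hom (X⟦1⟧, L ⊗ C)` is onto, then `Hom (X, L)` has no `p`-torsion. -/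
theorem eq_zero_of_surj {p : ℕ} {C : T} {i : 𝟙_ T ⟶ C} {δ : C ⟶ (𝟙_ T)⟦(1 : ℤ)⟧}
    (hC : Triangle.mk ((p : ℤ) • 𝟙 (𝟙_ T)) i δ ∈ distTriang T) (L : T) {X : T}
    (hs : ∀ z : X⟦(1 : ℤ)⟧ ⟶ L ⊗ C, ∃ y : X⟦(1 : ℤ)⟧ ⟶ L, y ≫ red L i = z) (x : X ⟶ L)
    (hx : p • x = 0) : x = 0 := by
  obtain ⟨d, hd⟩ := exists_dist hC L
  have hx' : x⟦(1 : ℤ)⟧' ≫ ((p : ℤ) • 𝟙 L)⟦(1 : ℤ)⟧' = 0 := by
    rw [← Functor.map_comp, Preadditive.comp_zsmul, Category.comp_id, natCast_zsmul, hx,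
      Functor.map_zero]
  obtain ⟨z, hz⟩ := Triangle.coyoneda_exact₁ _ hd (x⟦(1 : ℤ)⟧') hx'
  change X⟦(1 : ℤ)⟧ ⟶ L ⊗ C at z
  apply (shiftFunctor T (1 : ℤ)).map_injective
  obtain ⟨y, rfl⟩ := hs z
  rw [Functor.map_zero]
  have h1 : red L i ≫ d = 0 := comp_distTriang_mor_zero₂₃ _ hd
  refine hz.trans ?_
  change (y ≫ red L i) ≫ d = 0
  rw [Category.assoc, h1, comp_zero]

variable (Fs : SpaceFunctor T) {p n : ℕ} [Fact p.Prime] (hp : p ≠ 2)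
    (hn : 1 ≤ n) (hsq : n * n < 2 * (p - 1)) {K : T} [MonObj K] [IsCommMonObj K]
    (o : Oriented Fs K) (hK : IsMoravaPos Fs p n o) {L : T} (f : 𝟙_ T ⟶ L) (hf : Z.IsLoc K f)

include hK hf in
theorem loc_ne_zero : f ≠ 0 := by
  rintro rfl
  have h1 : IsIso (K ◁ (0 : 𝟙_ T ⟶ L)) := hf.1
  have h2 : (K ◁ (0 : 𝟙_ T ⟶ L)) = 0 := (tensorLeft K).map_zero _ _
  rw [h2] at h1
  have h3 : 𝟙 (K ⊗ 𝟙_ T) = 0 := by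
    have := h1
    rw [← IsIso.hom_inv_id (0 : K ⊗ 𝟙_ T ⟶ K ⊗ L), zero_comp]
  apply hK.ne
  have h4 : η[K] = (η[K] ≫ (ρ_ K).inv) ≫ 𝟙 _ ≫ (ρ_ K).hom := by simp
  rw [h4, h3, zero_comp, comp_zero]

include hp hn hsq hK hf

/-- `π_0 L ≅ ℤ_p`, and `π_0 L → π_0 (L ⊗ S/p)` is onto. -/
theorem pi_zero_iso : Nonempty (((𝟙_ T)⟦(0 : ℤ)⟧ ⟶ L) ≃+ ℤ_[p]) ∧
    ∀ {C : T} {i : 𝟙_ T ⟶ C} {δ : C ⟶ (𝟙_ T)⟦(1 : ℤ)⟧}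
      (_ : Triangle.mk ((p : ℤ) • 𝟙 (𝟙_ T)) i δ ∈ distTriang T)
      (z : (𝟙_ T)⟦(0 : ℤ)⟧ ⟶ L ⊗ C), ∃ y : (𝟙_ T)⟦(0 : ℤ)⟧ ⟶ L, y ≫ red L i = z := by
  obtain ⟨Q, hQ, hQ'⟩ := pi_rep Fs hp hn hsq o hK f hf 0 (dvd_zero _)
  obtain ⟨r, ⟨e⟩⟩ := (derComplete_pi Fs o hK f hf 0).exists_free Q hQ hQ'
    (pi_torsionfree Fs hp hn hsq o hK f hf 0 (dvd_zero _))
  have key : ∀ {C : T} {i : 𝟙_ T ⟶ C} {δ : C ⟶ (𝟙_ T)⟦(1 : ℤ)⟧}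
      (_ : Triangle.mk ((p : ℤ) • 𝟙 (𝟙_ T)) i δ ∈ distTriang T), r = 1 ∧
        ∀ (z : (𝟙_ T)⟦(0 : ℤ)⟧ ⟶ L ⊗ C), ∃ y : (𝟙_ T)⟦(0 : ℤ)⟧ ⟶ L, y ≫ red L i = z := by
    intro C i δ hC
    obtain ⟨g, hg⟩ := card_moore_zero Fs hp hn hsq o hK f hf hC
    let h : ((𝟙_ T)⟦(0 : ℤ)⟧ ⟶ L) →+ ((𝟙_ T)⟦(0 : ℤ)⟧ ⟶ L ⊗ C) :=
      AddMonoidHom.mk' (fun x => x ≫ red L i) fun x y => Preadditive.add_comp _ _ _ x y _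
    obtain ⟨h1, h2, -⟩ := rank_one e h (fun x hx => exists_smul hC L x hx) g hg
      ⟨((shiftFunctorZero T ℤ).app (𝟙_ T)).hom ≫ f, fun h0 => loc_ne_zero Fs o hK f hf (by
        rw [← cancel_epi ((shiftFunctorZero T ℤ).app (𝟙_ T)).hom, h0, comp_zero])⟩
    exact ⟨h1, h2⟩
  refine ⟨?_, fun hC => (key hC).2⟩
  obtain ⟨C, i, δ, hC⟩ := distinguished_cocone_triangle ((p : ℤ) • 𝟙 (𝟙_ T))
  obtain rfl := (key hC).1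
  exact ⟨e.trans (AddEquiv.mk' (Equiv.funUnique (Fin 1) ℤ_[p]) fun _ _ => rfl)⟩

/-- `π_0 (L ⊗ S/p)` has `p` elements. -/
theorem card_moore_eq {C : T} {i : 𝟙_ T ⟶ C} {δ : C ⟶ (𝟙_ T)⟦(1 : ℤ)⟧}
    (hC : Triangle.mk ((p : ℤ) • 𝟙 (𝟙_ T)) i δ ∈ distTriang T) :
    Nat.card ((𝟙_ T)⟦(0 : ℤ)⟧ ⟶ L ⊗ C) = p := by
  obtain ⟨g, hg⟩ := card_moore_zero Fs hp hn hsq o hK f hf hC
  obtain ⟨⟨e⟩, -⟩ := pi_zero_iso Fs hp hn hsq o hK f hf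
  let h : ((𝟙_ T)⟦(0 : ℤ)⟧ ⟶ L) →+ ((𝟙_ T)⟦(0 : ℤ)⟧ ⟶ L ⊗ C) :=
    AddMonoidHom.mk' (fun x => x ≫ red L i) fun x y => Preadditive.add_comp _ _ _ x y _
  exact (rank_one (r := 1) (e.trans (AddEquiv.mk' (Equiv.funUnique (Fin 1) ℤ_[p])
    fun _ _ => rfl).symm) h (fun x hx => exists_smul hC L x hx) g hg
      ⟨((shiftFunctorZero T ℤ).app (𝟙_ T)).hom ≫ f, fun h0 => loc_ne_zero Fs o hK f hf (by
        rw [← cancel_epi ((shiftFunctorZero T ℤ).app (𝟙_ T)).hom, h0, comp_zero])⟩).2.2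

/-- `π_{-1} L` has no `p`-torsion. -/
theorem pi_neg_one_torsionfree (x : (𝟙_ T)⟦(-1 : ℤ)⟧ ⟶ L) (hx : p • x = 0) : x = 0 := by
  obtain ⟨C, i, δ, hC⟩ := distinguished_cocone_triangle ((p : ℤ) • 𝟙 (𝟙_ T))
  refine eq_zero_of_surj hC L (fun z => ?_) x hx
  let e : ((𝟙_ T)⟦(-1 : ℤ)⟧)⟦(1 : ℤ)⟧ ≅ (𝟙_ T)⟦(0 : ℤ)⟧ :=
    ((shiftFunctorAdd' T (-1) 1 0 (by norm_num)).app (𝟙_ T)).symm
  obtain ⟨y, hy⟩ := (pi_zero_iso Fs hp hn hsq o hK f hf).2 hC (e.inv ≫ z)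
  exact ⟨e.hom ≫ y, by rw [Category.assoc, hy, Iso.hom_inv_id_assoc]⟩

end Vale.Agent.P261
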