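import Vale.Agent.P261.H468.FinalSH
import Vale.Agent.P261.H468.K.Zero
import Mathlib.NumberTheory.Padics.PadicVal.Basic

/-!
# P261, stage 2: the homotopy of `L_{K(n)} S` for `n² < 2 (p - 1)`, in the statement layer of P251
-/

open CategoryTheory MonoidalCategory Limits MonObj

open scoped TensorProduct

namespace Vale.Agent.P261

open Vale.Agent.P251 Vale.Agent.P251.St Vale.Agent.P251.St.SHCat

section

variable (T : SHCat) (S : Susp T) {p n : ℕ} [hp : Fact p.Prime] (hp2 : p ≠ 2) (hn : 1 ≤ n)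
  (hsq : n * n < 2 * (p - 1)) {K : RingSp T} {L : T.C} {f : Hom T.one L}
  (hK : IsMorava S K p n) (hf : IsLoc K.obj f)

include hp2 hn hsq hK hf

theorem sh_pi_zero : Nonempty (Hom (sphere T 0) L ≃+ ℤ_[p]) := by
  have := locallySmall_self.{0} T.C
  obtain ⟨o, ho⟩ := exists_oriented T S hn hK
  exact (pi_zero_iso S.toSpaceFunctor hp2 hn hsq o ho f ((isLoc_iff _ f).1 hf)).1

theorem sh_exp (t : ℤ) (s : ℕ) (hs : s ≤ n * n) (ht : (2 * ((p : ℤ) - 1)) ∣ t + (s : ℤ))
    (h0 : t + (s : ℤ) ≠ 0) (x : Hom (sphere T t) L) :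
    p ^ (padicValInt p (t + (s : ℤ)) + 1) • x = 0 := by
  have := locallySmall_self.{0} T.C
  obtain ⟨o, ho⟩ := exists_oriented T S hn hK
  obtain ⟨w, hw⟩ : (2 : ℤ) ∣ t + (s : ℤ) := (dvd_mul_right _ _).trans ht
  have hw0 : w ≠ 0 := by
    rintro rfl
    exact h0 (by rw [hw, mul_zero])
  have hwa : w.natAbs ≠ 0 := Int.natAbs_ne_zero.2 hw0
  have hval : padicValInt p (t + (s : ℤ)) = padicValNat p w.natAbs := by
    rw [hw, padicValInt, Int.natAbs_mul, padicValNat.mul (by norm_num) hwa]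
    have h2 : padicValNat p (2 : ℤ).natAbs = 0 := by
      apply padicValNat.eq_zero_of_not_dvd
      intro h
      exact hp2 ((Nat.prime_dvd_prime_iff_eq hp.out Nat.prime_two).1 h)
    rw [h2, zero_add]
  rw [hval]
  refine pi_smul S.toSpaceFunctor hp2 hn hsq o ho f ((isLoc_iff _ f).1 hf) hs hw ht hw0
    pow_padicValNat_dvd (fun h => ?_) x
  have := (padicValNat_dvd_iff_le hwa).1 h
  omega

theorem sh_zero_of_dvd (t : ℤ) (ht : (2 * ((p : ℤ) - 1)) ∣ t) (h0 : t ≠ 0)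
    (x : Hom (sphere T t) L) : x = 0 := by
  have := locallySmall_self.{0} T.C
  obtain ⟨o, ho⟩ := exists_oriented T S hn hK
  exact pi_zero_of_dvd S.toSpaceFunctor hp2 hn hsq o ho f ((isLoc_iff _ f).1 hf) ht h0 x

theorem sh_finite (t : ℤ) (ht : (2 * ((p : ℤ) - 1)) ∣ t + 1) (h0 : t ≠ -1) :
    Finite (Hom (sphere T t) L) := by
  have := locallySmall_self.{0} T.C
  obtain ⟨o, ho⟩ := exists_oriented T S hn hK
  exact pi_finite S.toSpaceFunctor hp2 hn hsq o ho f ((isLoc_iff _ f).1 hf) ht (by omega)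

theorem sh_neg (hn2 : 2 ≤ n) (t : ℤ) (ht : (2 * ((p : ℤ) - 1)) ∣ t + 1) (h0 : t < -1)
    (x : Hom (sphere T t) L) : x = 0 := by
  have h1 := sh_torsionfree T S hp2 hn hsq hK hf hn2 t ht (by omega)
  have h2 := sh_exp T S hp2 hn hsq hK hf t 1 (by nlinarith) (by simpa using ht)
    (by push_cast; omega) x
  exact h1 ⟨_, pow_ne_zero _ hp.out.ne_zero, h2⟩

omit hsq hp2 in
/-- `π_t L` has exactly one structure of a `ℤ_p`-module. -/
theorem sh_unique (t : ℤ) : Nonempty (Unique (Module ℤ_[p] (Hom (sphere T t) L))) := by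
  have := locallySmall_self.{0} T.C
  obtain ⟨o, ho⟩ := exists_oriented T S hn hK
  have h := derComplete_pi S.toSpaceFunctor o ho f ((isLoc_iff _ f).1 hf) t
  exact ⟨{ default := H660.mod h, uniq := fun M => H8.mod_unique h M _ }⟩

/-- `π_t L` is finitely generated over `ℤ_p`, unless `t = -1` or `2 (p - 1)` divides `t + s`,
`2 ≤ s ≤ n²`. -/
theorem sh_fg (t : ℤ) (ht1 : t ≠ -1)
    (ht : ∀ s : ℕ, 2 ≤ s → s ≤ n * n → ¬ (2 * ((p : ℤ) - 1)) ∣ t + (s : ℤ))
    (M : Module ℤ_[p] (Hom (sphere T t) L)) : Module.Finite ℤ_[p] (Hom (sphere T t) L) := by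
  have := locallySmall_self.{0} T.C
  obtain ⟨o, ho⟩ := exists_oriented T S hn hK
  have hf' := (isLoc_iff _ f).1 hf
  have h := derComplete_pi S.toSpaceFunctor o ho f hf' t
  have key : ∀ Q : Set (Hom (sphere T t) L), Q.Finite →
      (∀ a : Hom (sphere T t) L, ∃ s ∈ Q, ∃ b : Hom (sphere T t) L, a = s + p • b) →
      Module.Finite ℤ_[p] (Hom (sphere T t) L) := by
    intro Q hQ hd
    obtain ⟨M', hM'⟩ := h.exists_module Q hQ hd
    obtain rfl : M' = M := H8.mod_unique h M' M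
    exact hM'
  by_cases h0 : (2 * ((p : ℤ) - 1)) ∣ t
  · obtain ⟨Q, hQ, hQ'⟩ := pi_rep S.toSpaceFunctor hp2 hn hsq o ho f hf' t h0
    exact key Q hQ hQ'
  by_cases h1 : (2 * ((p : ℤ) - 1)) ∣ t + 1
  · have := sh_finite T S hp2 hn hsq hK hf t h1 ht1
    exact key Set.univ (Set.toFinite _) fun a => ⟨a, trivial, 0, by rw [smul_zero, add_zero]⟩
  · refine key {0} (Set.finite_singleton _) fun a => ⟨0, rfl, 0, ?_⟩
    rw [smul_zero, add_zero]
    refine sh_zero T S hp2 hn hsq hK hf t (fun s hs => ?_) a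
    rcases Nat.lt_or_ge s 2 with h2 | h2
    · interval_cases s
      · simpa using h0
      · simpa using h1
    · exact ht s h2 hs

/-- `π_{-1} L` is finitely generated if its rationalization is finite-dimensional. -/
theorem sh_neg_one_fg (M : Module ℤ_[p] (Hom (sphere T (-1)) L))
    (hM : Module.Finite ℚ_[p] (ℚ_[p] ⊗[ℤ_[p]] Hom (sphere T (-1)) L)) :
    Module.Finite ℤ_[p] (Hom (sphere T (-1)) L) := by
  have := locallySmall_self.{0} T.C
  obtain ⟨o, ho⟩ := exists_oriented T S hn hK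
  have h := derComplete_pi S.toSpaceFunctor o ho f ((isLoc_iff _ f).1 hf) (-1)
  obtain ⟨M', hM'⟩ := sh_rat T S hp2 hn hsq hK hf (-1) (by norm_num)
  obtain rfl : M' = M := H8.mod_unique h M' M
  exact hM' hM

theorem sh_card {C : T.C} {a : Hom T.one C} {b : Hom C (sus T.one)}
    (h : Dist (zmul (p : ℤ) (ident T.one)) a b) : Nat.card (Hom (sphere T 0) (ten L C)) = p := by
  have := locallySmall_self.{0} T.C
  obtain ⟨o, ho⟩ := exists_oriented T S hn hK
  exact card_moore_eq S.toSpaceFunctor hp2 hn hsq o ho f ((isLoc_iff _ f).1 hf) h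

theorem sh_moore_neg (hn2 : 2 ≤ n) {C : T.C} {a : Hom T.one C} {b : Hom C (sus T.one)}
    (h : Dist (zmul (p : ℤ) (ident T.one)) a b) (t : ℤ) (ht : (2 * ((p : ℤ) - 1)) ∣ t)
    (h0 : t < 0) (x : Hom (sphere T t) (ten L C)) : x = 0 := by
  have := locallySmall_self.{0} T.C
  obtain ⟨o, ho⟩ := exists_oriented T S hn hK
  exact (moorePi S.toSpaceFunctor hp2 hn hsq o ho f ((isLoc_iff _ f).1 hf) h).neg hn2 t ht h0 x

theorem sh_neg_one (m : ℕ) (hm : m ≠ 0) (x : Hom (sphere T (-1)) L) (hx : m • x = 0) :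
    x = 0 := by
  have := locallySmall_self.{0} T.C
  obtain ⟨o, ho⟩ := exists_oriented T S hn hK
  have hf' := (isLoc_iff _ f).1 hf
  exact (derComplete_pi S.toSpaceFunctor o ho f hf' (-1)).eq_zero_of_nsmul
    (pi_neg_one_torsionfree S.toSpaceFunctor hp2 hn hsq o ho f hf') hm hx

end

end Vale.Agent.P261
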