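import Vale.Agent.P261.H468.K.Stems2
import Vale.Agent.P261.H468.MainPi
import Vale.Agent.P261.H915.K12
import Vale.Agent.P261.H555.K11

/-!
# P261, stage 2 (K10): the exponent of `π_t L_{K(n)} S`, `n² < 2 (p - 1)`; the stems `0` and `-1`
-/

open CategoryTheory MonoidalCategory Limits Pretriangulated MonObj

set_option linter.unusedSectionVars false

universe v u

namespace Vale.Agent.P261

open Vale.Agent.P251 Vale.Agent.P251.T Vale.Agent.P251.M Vale.Agent.P251.S Vale.Agent.P251.F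
  Vale.Agent.P251.I Vale.Agent.P251.Z

variable {T : Type u} [Category.{v} T] [Preadditive T] [HasZeroObject T]
    [HasShift T ℤ] [∀ n : ℤ, (shiftFunctor T n).Additive] [Pretriangulated T] [IsTriangulated T]
    [MonoidalCategory T] [SymmetricCategory T] [TensorTriangulated T] [MonoidalClosed T]
    [HasCoproducts.{0} T] [HasProducts.{0} T] [StableCat T] [LocallySmall.{0} T]

variable (Fs : SpaceFunctor T) {p n : ℕ} [Fact p.Prime] (hp : p ≠ 2)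
    (hn : 1 ≤ n) (hsq : n * n < 2 * (p - 1)) {K : T} [MonObj K] [IsCommMonObj K]
    (o : Oriented Fs K) (hK : IsMoravaPos Fs p n o) {L : T} (f : 𝟙_ T ⟶ L) (hf : Z.IsLoc K f)

include hp hn hsq hK hf

/-- `(1 + p)^|w| - 1` kills `π_t (L ⊗ S/p^k)`, `t + s₀ = 2 w`. -/
theorem moore_smul {k : ℕ} (hk : 1 ≤ k) {C : T} {i : 𝟙_ T ⟶ C} {δ : C ⟶ (𝟙_ T)⟦(1 : ℤ)⟧}
    (hC : Triangle.mk (((p ^ k : ℕ) : ℤ) • 𝟙 (𝟙_ T)) i δ ∈ distTriang T) {t w : ℤ} {s₀ : ℕ}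
    (hs₀ : s₀ ≤ n * n) (hw : t + (s₀ : ℤ) = 2 * w) (hdw : (2 * ((p : ℤ) - 1)) ∣ t + (s₀ : ℤ))
    (x : (𝟙_ T)⟦t⟧ ⟶ L ⊗ C) : ((((1 + p) ^ w.natAbs : ℕ) : ℤ) - 1) • x = 0 := by
  have hpp : p.Prime := Fact.out
  have hd := not_dvd_of_sq hpp hp hn hsq
  obtain ⟨D, H⟩ := M.MU_univ T Fs (M.lineIso Fs)
  obtain ⟨Dk⟩ := exists_kosData D.P (p : ℤ) n (D.vs p)
  obtain ⟨F⟩ := nonempty_locFunctor' Dk.K
  obtain ⟨U⟩ := exists_unitCof D.R
  obtain ⟨C₁, i₁, δ₁, hC₁⟩ := distinguished_cocone_triangle ((p : ℤ) • 𝟙 (𝟙_ T))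
  obtain ⟨e⟩ := exists_iso_of_loc f hf.1 hC hf.2
    (fun W hW => acyclic_of_kos H hn o hK Dk hW)
    (fun W hW => kos_of_acyclic H hp hn hC₁ o hK Dk hW) F
  have hsq' : ((n * n : ℕ) : ℤ) < 2 * ((p : ℤ) - 1) := by
    have h1 : 1 ≤ p := hpp.one_le
    zify [h1] at hsq
    exact_mod_cast hsq
  have h0 := moore_kill D U hp hn hd Dk F hk hC hw (fun s hs hne hdv => by
    have h4 : (2 * ((p : ℤ) - 1)) ∣ (s : ℤ) - (s₀ : ℤ) := by
      have := dvd_sub hdv hdw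
      rwa [add_sub_add_left_eq_sub] at this
    obtain ⟨c, hc⟩ := h4
    have h5 : (s : ℤ) ≤ ((n * n : ℕ) : ℤ) := by exact_mod_cast hs
    have h6 : (s₀ : ℤ) ≤ ((n * n : ℕ) : ℤ) := by exact_mod_cast hs₀
    have h7 : (s : ℤ) - (s₀ : ℤ) ≠ 0 := by
      intro h; apply hne; omega
    rcases lt_trichotomy c 0 with h | h | h
    · nlinarith
    · rw [h, mul_zero] at hc; exact h7 hc
    · nlinarith) (x ≫ e.inv)
  rw [← cancel_mono e.inv, zero_comp, Preadditive.zsmul_comp]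
  exact h0

/-- `p^(a+1)` kills `π_t L`, `t + s₀ = 2 w`, `p^a` the `p`-part of `w ≠ 0`. -/
theorem pi_smul {t w : ℤ} {s₀ a : ℕ}
    (hs₀ : s₀ ≤ n * n) (hw : t + (s₀ : ℤ) = 2 * w) (hdw : (2 * ((p : ℤ) - 1)) ∣ t + (s₀ : ℤ))
    (hw0 : w ≠ 0) (ha : p ^ a ∣ w.natAbs) (ha' : ¬ p ^ (a + 1) ∣ w.natAbs)
    (x : (𝟙_ T)⟦t⟧ ⟶ L) : (p ^ (a + 1) : ℕ) • x = 0 := by
  obtain ⟨h1, h2⟩ := pow_dvd_one_add_pow (Fact.out : p.Prime) hp (Int.natAbs_ne_zero.2 hw0) ha ha'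
  refine (derComplete_pi Fs o hK f hf t).smul_eq_zero_of_forall h1 h2 (fun k y => ?_) x
  rcases Nat.eq_zero_or_pos k with rfl | hk
  · exact ⟨((((1 + p) ^ w.natAbs : ℕ) : ℤ) - 1) • y, by rw [pow_zero, one_smul]⟩
  obtain ⟨C, i, δ, hC⟩ := distinguished_cocone_triangle (((p ^ k : ℕ) : ℤ) • 𝟙 (𝟙_ T))
  refine exists_smul hC L _ ?_
  rw [Preadditive.zsmul_comp]
  exact moore_smul Fs hp hn hsq o hK f hf hk hC hs₀ hw hdw _

/-- `π_t L = 0` if `2 (p - 1)` divides `t ≠ 0`. -/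
theorem pi_zero_of_dvd {t : ℤ} (ht : (2 * ((p : ℤ) - 1)) ∣ t) (h0 : t ≠ 0)
    (x : (𝟙_ T)⟦t⟧ ⟶ L) : x = 0 := by
  obtain ⟨w, hw⟩ : (2 : ℤ) ∣ t := (dvd_mul_right _ _).trans ht
  have hw0 : w.natAbs ≠ 0 := by
    rw [Ne, Int.natAbs_eq_zero]
    rintro rfl
    exact h0 (by rw [hw, mul_zero])
  obtain ⟨a, m, hm, ham⟩ := Nat.exists_eq_pow_mul_and_not_dvd hw0 p (Fact.out : p.Prime).ne_one
  have h1 := pi_smul Fs hp hn hsq o hK f hf (t := t) (w := w) (s₀ := 0) (a := a) (Nat.zero_le _)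
    (by rw [hw]; push_cast; ring) (by simpa using ht) (Int.natAbs_ne_zero.1 hw0)
    (by rw [ham]; exact dvd_mul_right _ _)
    (by
      rw [ham, pow_succ]
      intro h
      exact hm ((Nat.mul_dvd_mul_iff_left (pow_pos (Fact.out : p.Prime).pos a)).1 h)) x
  have h2 : ∀ (b : ℕ) (y : (𝟙_ T)⟦t⟧ ⟶ L), (p ^ b : ℕ) • y = 0 → y = 0 := by
    intro b
    induction b with
    | zero => intro y hy; simpa using hy
    | succ b ih =>
      intro y hy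
      rw [pow_succ, mul_smul] at hy
      exact pi_torsionfree Fs hp hn hsq o hK f hf t ht y (ih _ hy)
  exact h2 _ x h1

/-- `π_t L` is finite if `2 (p - 1)` divides `t + 1 ≠ 0`. -/
theorem pi_finite {t : ℤ} (ht : (2 * ((p : ℤ) - 1)) ∣ t + 1) (h0 : t + 1 ≠ 0) :
    Finite ((𝟙_ T)⟦t⟧ ⟶ L) := by
  have h1 := pi_torsion Fs hp hn hsq o hK f hf t ht
  rw [← Set.finite_univ_iff]
  refine h1.subset fun x _ => ?_
  obtain ⟨w, hw⟩ : (2 : ℤ) ∣ t + 1 := (dvd_mul_right _ _).trans ht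
  have hw0 : w.natAbs ≠ 0 := by
    rw [Ne, Int.natAbs_eq_zero]
    rintro rfl
    exact h0 (by rw [hw, mul_zero])
  obtain ⟨a, m, hm, ham⟩ := Nat.exists_eq_pow_mul_and_not_dvd hw0 p (Fact.out : p.Prime).ne_one
  refine ⟨p ^ (a + 1), pow_ne_zero _ (Fact.out : p.Prime).ne_zero, ?_⟩
  exact pi_smul Fs hp hn hsq o hK f hf (t := t) (w := w) (s₀ := 1) (a := a) (by nlinarith)
    (by rw [← hw]; push_cast; ring) (by simpa using ht) (Int.natAbs_ne_zero.1 hw0)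
    (by rw [ham]; exact dvd_mul_right _ _)
    (by
      rw [ham, pow_succ]
      intro h
      exact hm ((Nat.mul_dvd_mul_iff_left (pow_pos (Fact.out : p.Prime).pos a)).1 h)) x

/-- `π_0 (L ⊗ S/p)` has at most `p` elements. -/
theorem card_moore_zero {C : T} {i : 𝟙_ T ⟶ C} {δ : C ⟶ (𝟙_ T)⟦(1 : ℤ)⟧}
    (hC : Triangle.mk ((p : ℤ) • 𝟙 (𝟙_ T)) i δ ∈ distTriang T) :
    ∃ g : ((𝟙_ T)⟦(0 : ℤ)⟧ ⟶ L ⊗ C) → Fin p, Function.Injective g := by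
  have hpp : p.Prime := Fact.out
  have hd := not_dvd_of_sq hpp hp hn hsq
  obtain ⟨D, H⟩ := M.MU_univ T Fs (M.lineIso Fs)
  obtain ⟨Dk⟩ := exists_kosData D.P (p : ℤ) n (D.vs p)
  obtain ⟨F⟩ := nonempty_locFunctor' Dk.K
  obtain ⟨U⟩ := exists_unitCof D.R
  let G : GrOut D U p n i F := grOut D U hp hn hC Dk F
  obtain ⟨e⟩ := exists_iso_of_loc f hf.1 hC hf.2
    (fun W hW => acyclic_of_kos H hn o hK Dk hW)
    (fun W hW => kos_of_acyclic H hp hn hC o hK Dk hW) F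
  have hsq' : ((n * n : ℕ) : ℤ) < 2 * ((p : ℤ) - 1) := by
    have h1 : 1 ≤ p := hpp.one_le
    zify [h1] at hsq
    exact_mod_cast hsq
  have hs : ∀ s : ℕ, 1 ≤ s → s ≤ n * n → ¬ (2 * ((p : ℤ) - 1)) ∣ (0 : ℤ) + (s : ℤ) := by
    intro s h1 h2 h3
    rw [zero_add] at h3
    have h5 := Int.le_of_dvd (by omega) h3
    have h6 : (s : ℤ) ≤ ((n * n : ℕ) : ℤ) := by exact_mod_cast h2
    omega
  obtain ⟨g, hg, hg'⟩ := exists_inj_zeroLine G hp hn hd (w := 0) (by ring) hs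
  choose a ha ha' using fun x => zero_line_zero p n hn (g x) (hg' x)
  refine ⟨fun x => ⟨a (x ≫ e.inv), ha _⟩, fun x y hxy => ?_⟩
  have h1 : a (x ≫ e.inv) = a (y ≫ e.inv) := congrArg Fin.val hxy
  have h2 : g (x ≫ e.inv) = g (y ≫ e.inv) := by
    funext j
    apply Subtype.ext
    rw [ha', ha', h1]
  exact (cancel_mono e.inv).1 (hg h2)

end Vale.Agent.P261
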