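import Vale.Agent.P261.H616.K6B
import Vale.Agent.P261.H555.K4
import Vale.Agent.P261.H915.K5

/-!
# P261, stage 2 (K6): the cobar complex of `L (S/p^k)`
-/

open CategoryTheory MonoidalCategory Limits Pretriangulated MonObj

set_option linter.unusedSectionVars false

universe v u

namespace Vale.Agent.P261

open Vale.Agent.P251 Vale.Agent.P251.T Vale.Agent.P251.M Vale.Agent.P251.S Vale.Agent.P251.F
  Vale.Agent.P251.I

variable {T : Type u} [Category.{v} T] [Preadditive T] [HasZeroObject T]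
    [HasShift T ℤ] [∀ n : ℤ, (shiftFunctor T n).Additive] [Pretriangulated T] [IsTriangulated T]
    [MonoidalCategory T] [SymmetricCategory T] [TensorTriangulated T] [MonoidalClosed T]
    [HasCoproducts.{0} T] [HasProducts.{0} T] [StableCat T]

/-- The cobar complex of `L (S/p^k)` is the limit of `towerM`. -/
theorem nonempty_cobModelM (D : MUData T) {p k : ℕ} [Fact p.Prime] (hp : p ≠ 2) (hk : 1 ≤ k)
    {h : ℕ} (hh : 1 ≤ h) {C : T} {i : 𝟙_ T ⟶ C} {δ : C ⟶ (𝟙_ T)⟦(1 : ℤ)⟧}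
    (hC : Triangle.mk (((p ^ k : ℕ) : ℤ) • 𝟙 (𝟙_ T)) i δ ∈ distTriang T)
    (Dk : KosData D.P (p : ℤ) h (D.vs p)) (F : LocFunctor Dk.K) (U : UnitCof D.R) (w : ℤ) :
    Nonempty (U.CobModel (𝟙_ T) (tensorRight C ⋙ F.L) (𝟙_ T) w (towerM p (p ^ k) h w)) :=
  ⟨cobModelM D U F i hC (fun s w f => moore_surj D hp hk s hC w f)
    (fun s w z hz a ha h0 => moore_ker D hp hk s hC w z hz a ha h0)
    (fun s => moore_e1C D hp hk hh hC Dk F s) w⟩

end Vale.Agent.P261
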