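import Vale.Agent.P261.H468.K.Couple
import Vale.Agent.P261.H468.K.Model
import Vale.Agent.P261.H468.Stems
import Vale.Agent.P261.H19.K8
import Vale.Agent.P261.H984.K7
import Vale.Agent.P261.H984.K4a

/-!
# P261, stage 2 (K10): the exponent of the homotopy of `L_{K(h)} S/p^k`, `h² < 2 (p - 1)`

`moore_kill`: `(1 + p)^|w| - 1` kills `π_t (L (S/p^k))` if `t + s₀ = 2 w` and `2 (p - 1)` divides
`t + s`, `s ≤ h²`, only for `s = s₀`.
-/

open CategoryTheory MonoidalCategory Limits Pretriangulated MonObj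

set_option linter.unusedSectionVars false

universe v u

namespace Vale.Agent.P261

open Vale.Agent.P251 Vale.Agent.P251.T Vale.Agent.P251.M Vale.Agent.P251.F Vale.Agent.P251.I
  Vale.Agent.P251.S

variable {T : Type u} [Category.{v} T] [Preadditive T] [HasZeroObject T]
    [HasShift T ℤ] [∀ n : ℤ, (shiftFunctor T n).Additive] [Pretriangulated T] [IsTriangulated T]
    [MonoidalCategory T] [SymmetricCategory T] [TensorTriangulated T] [MonoidalClosed T]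
    [HasCoproducts.{0} T] [HasProducts.{0} T] [StableCat T]

section one

variable {D : MUData T} {U : UnitCof D.R} {p h : ℕ} [Fact p.Prime] {C : T} {i : 𝟙_ T ⟶ C}
  {Dk : KosData D.P (p : ℤ) h (D.vs p)} {F : LocFunctor Dk.K} (G : GrOut D U p h i F)

/-- exactness from the vanishing of the cohomology of the limit -/
theorem exC_of_lim {w : ℤ} {Tw : TowerCx.{0}}
    (Φ : U.CobModel (𝟙_ T) (tensorRight C ⋙ F.L) (𝟙_ T) w Tw) {s : ℕ}
    (hlim : ∀ z ∈ Tw.lim (s + 1), (∀ j, Tw.d (s + 1) j (z j) = 0) →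
      ∃ y ∈ Tw.lim s, ∀ j, Tw.d s j (y j) = z j) : ExC U C F (2 * w) s := by
  intro c hc
  obtain ⟨y, hy, hyd⟩ := hlim (Φ.φ (s + 1) c).1 (Φ.φ (s + 1) c).2 (by
    intro j
    have h := Φ.φ_d (s + 1) c j
    rw [hc, map_zero] at h
    exact h.symm)
  refine ⟨(Φ.φ s).symm ⟨y, hy⟩, ?_⟩
  apply (Φ.φ (s + 1)).injective
  apply Subtype.ext
  funext j
  rw [Φ.φ_d, AddEquiv.apply_symm_apply]
  exact hyd j

include G in
theorem exC_one (hp : p ≠ 2) (hh : 1 ≤ h) (hd : ¬ (p - 1) ∣ h) {w : ℤ} {s : ℕ}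
    (hw : ¬ ((p : ℤ) - 1) ∣ w ∨ h * h ≤ s) : ExC U C F (2 * w) s := by
  rcases hw with hw | hs
  · exact exC_of_lim (G.model w) (lim_of_not_dvd hp h hw s)
  · exact exC_of_lim (G.model w) (lim_of_high hp hh hd w s hs)

include G in
theorem exZ_one (hp : p ≠ 2) {w : ℤ} (hw : ¬ ((p : ℤ) - 1) ∣ w) : ExZ U C F (2 * w) := by
  intro c hc
  apply ((G.model w).φ 0).injective
  rw [map_zero]
  apply Subtype.ext
  funext j
  have h1 := (G.model w).φ_d 0 c j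
  rw [hc, map_zero] at h1
  exact zero_of_not_dvd h hp hw j (((G.model w).φ 0 c).1 j) h1.symm

end one

section all

variable (D : MUData T) (U : UnitCof D.R) {p h : ℕ} [Fact p.Prime] (hp : p ≠ 2) (hh : 1 ≤ h)
  (hd : ¬ (p - 1) ∣ h) (Dk : KosData D.P (p : ℤ) h (D.vs p)) (F : LocFunctor Dk.K)

include hp hh in
theorem oddC {k : ℕ} (hk : 1 ≤ k) {C : T} {i : 𝟙_ T ⟶ C} {δ : C ⟶ (𝟙_ T)⟦(1 : ℤ)⟧}
    (hC : Triangle.mk (((p ^ k : ℕ) : ℤ) • 𝟙 (𝟙_ T)) i δ ∈ distTriang T) : OddC U C F :=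
  fun s t ht x => GD.odd_zero D U F (moore_e1C D hp hk hh hC Dk F s) t ht x

include hp hh hd in
theorem exC_all {w : ℤ} {s : ℕ} (hw : ¬ ((p : ℤ) - 1) ∣ w ∨ h * h ≤ s) {k : ℕ} (hk : 1 ≤ k) :
    ∀ {C : T} {i : 𝟙_ T ⟶ C} {δ : C ⟶ (𝟙_ T)⟦(1 : ℤ)⟧}
      (_ : Triangle.mk (((p ^ k : ℕ) : ℤ) • 𝟙 (𝟙_ T)) i δ ∈ distTriang T),
      ExC U C F (2 * w) s := by
  induction k, hk using Nat.le_induction with
  | base =>
    intro C i δ hC
    rw [pow_one] at hC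
    exact exC_one (grOut D U hp hh hC Dk F) hp hh hd hw
  | succ k hk ih =>
    intro C i δ hC
    obtain ⟨A, i₁, δ₁, h₁⟩ := distinguished_cocone_triangle (((p ^ k : ℕ) : ℤ) • 𝟙 (𝟙_ T))
    obtain ⟨B, i₃, δ₃, h₃⟩ := distinguished_cocone_triangle ((p : ℤ) • 𝟙 (𝟙_ T))
    have h₂ : Triangle.mk ((((p ^ k : ℕ) : ℤ) * (p : ℤ)) • 𝟙 (𝟙_ T)) i δ ∈ distTriang T := by
      rw [← Nat.cast_mul, ← pow_succ]
      exact hC
    have h₃' : Triangle.mk (((p ^ 1 : ℕ) : ℤ) • 𝟙 (𝟙_ T)) i₃ δ₃ ∈ distTriang T := by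
      rw [pow_one]; exact h₃
    obtain ⟨f, g, e, he, -, -⟩ := exists_moore_triangle h₁ h₂ h₃
    exact exC_devissage U F he (oddC D U hp hh Dk F hk h₁)
      (oddC D U hp hh Dk F (by omega) hC) (oddC D U hp hh Dk F le_rfl h₃') ⟨w, by ring⟩ s (ih h₁)
      (exC_one (grOut D U hp hh h₃ Dk F) hp hh hd hw)

include hp hh in
theorem exZ_all {w : ℤ} (hw : ¬ ((p : ℤ) - 1) ∣ w) {k : ℕ} (hk : 1 ≤ k) :
    ∀ {C : T} {i : 𝟙_ T ⟶ C} {δ : C ⟶ (𝟙_ T)⟦(1 : ℤ)⟧}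
      (_ : Triangle.mk (((p ^ k : ℕ) : ℤ) • 𝟙 (𝟙_ T)) i δ ∈ distTriang T),
      ExZ U C F (2 * w) := by
  induction k, hk using Nat.le_induction with
  | base =>
    intro C i δ hC
    rw [pow_one] at hC
    exact exZ_one (grOut D U hp hh hC Dk F) hp hw
  | succ k hk ih =>
    intro C i δ hC
    obtain ⟨A, i₁, δ₁, h₁⟩ := distinguished_cocone_triangle (((p ^ k : ℕ) : ℤ) • 𝟙 (𝟙_ T))
    obtain ⟨B, i₃, δ₃, h₃⟩ := distinguished_cocone_triangle ((p : ℤ) • 𝟙 (𝟙_ T))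
    have h₂ : Triangle.mk ((((p ^ k : ℕ) : ℤ) * (p : ℤ)) • 𝟙 (𝟙_ T)) i δ ∈ distTriang T := by
      rw [← Nat.cast_mul, ← pow_succ]
      exact hC
    have h₃' : Triangle.mk (((p ^ 1 : ℕ) : ℤ) • 𝟙 (𝟙_ T)) i₃ δ₃ ∈ distTriang T := by
      rw [pow_one]; exact h₃
    obtain ⟨f, g, e, he, -, -⟩ := exists_moore_triangle h₁ h₂ h₃
    exact exZ_devissage U F he (oddC D U hp hh Dk F hk h₁)
      (oddC D U hp hh Dk F (by omega) hC) (oddC D U hp hh Dk F le_rfl h₃') ⟨w, by ring⟩ (ih h₁)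
      (exZ_one (grOut D U hp hh h₃ Dk F) hp hw)

/-- `ExC` gives `Kill` -/
theorem kill_of_exC {C : T} {s : ℕ} {n t : ℤ} (h : n + ((s + 1 : ℕ) : ℤ) = t)
    (hE : ExC U C F t s) : (cpl U C F).Kill n 1 (s + 1) :=
  Couple.kill_one_succ _ (U.van_of_exact (𝟙_ T) (tensorRight C ⋙ F.L) (𝟙_ T) h hE)

theorem kill_of_exZ {C : T} {n t : ℤ} (h : n + ((0 : ℕ) : ℤ) = t)
    (hE : ExZ U C F t) : (cpl U C F).Kill n 1 0 := by
  intro z hz
  obtain ⟨c, hc, rfl⟩ := U.exists_cocycle_qE (𝟙_ T) (tensorRight C ⋙ F.L) (𝟙_ T) h z hz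
  rw [hE c hc, map_zero, smul_zero]

theorem kill_of_odd {C : T} (hodd : OddC U C F) {s : ℕ} {n : ℤ} (h : Odd (n + (s : ℤ))) :
    (cpl U C F).Kill n 1 s := by
  have h0 : ∀ z : (cpl U C F).E s n, z = 0 := fun z => UnitCof.E_eq_zero_of_odd hodd s n h z
  cases s with
  | zero => intro z _; rw [h0 z, smul_zero]
  | succ s => intro z _; exact ⟨0, by rw [map_zero, h0 z, smul_zero]⟩

end all

section main

variable (D : MUData T) (U : UnitCof D.R) {p h : ℕ} [Fact p.Prime] (hp : p ≠ 2) (hh : 1 ≤ h)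
  (hd : ¬ (p - 1) ∣ h) (Dk : KosData D.P (p : ℤ) h (D.vs p)) (F : LocFunctor Dk.K)
  {k : ℕ} (hk : 1 ≤ k) {C : T} {i : 𝟙_ T ⟶ C} {δ : C ⟶ (𝟙_ T)⟦(1 : ℤ)⟧}
  (hC : Triangle.mk (((p ^ k : ℕ) : ℤ) • 𝟙 (𝟙_ T)) i δ ∈ distTriang T)

include hp hh hd hk hC

/-- The cohomology of `E_1` vanishes if `2 (p - 1)` does not divide the internal degree, and above
`h²`. -/
theorem kill_one {s : ℕ} {n : ℤ} (hs : ¬ (2 * ((p : ℤ) - 1)) ∣ n + (s : ℤ) ∨ h * h + 1 ≤ s) :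
    (cpl U C F).Kill n 1 s := by
  rcases Int.even_or_odd (n + (s : ℤ)) with he | ho
  · obtain ⟨w, hw⟩ := he
    have hw' : n + (s : ℤ) = 2 * w := by rw [hw]; ring
    have hs' : ¬ ((p : ℤ) - 1) ∣ w ∨ h * h + 1 ≤ s := by
      rcases hs with hs | hs
      · left
        intro hdv
        exact hs (by rw [hw']; exact mul_dvd_mul_left 2 hdv)
      · exact Or.inr hs
    cases s with
    | zero =>
      rcases hs' with hs' | hs'
      · exact kill_of_exZ D U Dk F hw' (exZ_all D U hp hh Dk F hs' hk hC)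
      · omega
    | succ s =>
      exact kill_of_exC D U Dk F hw' (exC_all D U hp hh hd Dk F
        (hs'.imp id (fun h => by omega)) hk hC)
  · exact kill_of_odd D U Dk F (oddC D U hp hh Dk F hk hC) ho

/-- Convergence. -/
theorem i_eq_zeroM (s : ℕ) (hs : h * h + 1 ≤ s) (n : ℤ) (y : (cpl U C F).D (s + 1) n) :
    (cpl U C F).i s n y = 0 := by
  obtain ⟨c, hc⟩ := built_finEven_RPS D
  obtain ⟨b, hKF⟩ := Dk.built_finEven hc
  refine (U.tow (𝟙_ T)).converge_coeff C F (U.whisker_tow_c _)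
    (Dk.built_isRMul (built_isRMul_RPS D.R _)) hKF
    (fun s n hn z => UnitCof.E_eq_zero_of_odd (oddC D U hp hh Dk F hk hC) s n
      (Int.odd_iff.2 hn) z) (h * h) ?_ s hs n y
  intro s hs n z hz
  have := kill_one D U hp hh hd Dk F hk hC (s := s + 1) (n := n) (Or.inr (by omega)) z hz
  rwa [one_smul] at this

/-- `(1 + p)^|w| - 1` kills the cohomology in internal degree `2 w`. -/
theorem kill_w {s : ℕ} {n w : ℤ} (hw : n + (s : ℤ) = 2 * w) :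
    (cpl U C F).Kill n ((((1 + p) ^ w.natAbs : ℕ) : ℤ) - 1) s := by
  obtain ⟨Φ⟩ := nonempty_cobModelM D hp hk hh hC Dk F U w
  cases s with
  | zero =>
    intro z hz
    obtain ⟨c, hc, rfl⟩ := U.exists_cocycle_qE (𝟙_ T) (tensorRight C ⋙ F.L) (𝟙_ T) hw z hz
    have h1 : ((((1 + p) ^ w.natAbs : ℕ) : ℤ) - 1) • c = 0 := by
      apply (Φ.φ 0).injective
      rw [map_zero]
      apply Subtype.ext
      funext j
      have h2 := Φ.φ_d 0 c j
      rw [hc, map_zero] at h2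
      have h3 := towerM_zero_smul p k h hk w j _ h2.symm
      rw [map_zsmul, sub_smul, one_smul]
      exact h3
    rw [← map_zsmul, h1, map_zero]
  | succ s =>
    intro z hz
    obtain ⟨c, hc, rfl⟩ := U.exists_cocycle_qE (𝟙_ T) (tensorRight C ⋙ F.L) (𝟙_ T) hw z hz
    obtain ⟨y, hy, hyd⟩ := towerM_lim_smul p k h hk w s (Φ.φ (s + 1) c).1
      (Φ.φ (s + 1) c).2 (by
        intro j
        have h := Φ.φ_d (s + 1) c j
        rw [hc, map_zero] at h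
        exact h.symm)
    have h1 : (Φ.φ s).symm ⟨y, hy⟩ ≫ (tensorRight C ⋙ F.L).map (U.cobar.d (s + 1) (𝟙_ T)) =
        ((((1 + p) ^ w.natAbs : ℕ) : ℤ) - 1) • c := by
      apply (Φ.φ (s + 1)).injective
      apply Subtype.ext
      funext j
      rw [Φ.φ_d, AddEquiv.apply_symm_apply, map_zsmul, sub_smul, one_smul]
      exact hyd j
    rw [← map_zsmul, ← h1]
    have h2 : (n + 1) + (s : ℤ) = 2 * w := by push_cast at hw; omega
    exact ⟨U.qE (𝟙_ T) (tensorRight C ⋙ F.L) (𝟙_ T) h2 _, U.d_qE (𝟙_ T) (tensorRight C ⋙ F.L) (𝟙_ T)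
      rfl h2 hw _⟩

include U in
/-- `(1 + p)^|w| - 1` kills `π_t (L (S/p^k))`. -/
theorem moore_kill {t w : ℤ} {s₀ : ℕ} (hw : t + (s₀ : ℤ) = 2 * w)
    (ht : ∀ s : ℕ, s ≤ h * h → s ≠ s₀ → ¬ (2 * ((p : ℤ) - 1)) ∣ t + (s : ℤ))
    (x : (𝟙_ T)⟦t⟧ ⟶ F.L.obj C) : ((((1 + p) ^ w.natAbs : ℕ) : ℤ) - 1) • x = 0 := by
  have h1 : ∀ y : (cpl U C F).D 0 t, ((((1 + p) ^ w.natAbs : ℕ) : ℤ) - 1) • y = 0 :=
    (cpl U C F).smul_eq_zero_of_kill s₀ (fun s hs => by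
      refine kill_one D U hp hh hd Dk F hk hC ?_
      rcases Nat.lt_or_ge (h * h) s with h2 | h2
      · exact Or.inr h2
      · exact Or.inl (ht s h2 hs)) (kill_w D U hp hh hd Dk F hk hC hw) (h * h + 1)
      (fun s hs y => i_eq_zeroM D U hp hh hd Dk F hk hC s hs t y)
  apply (piEquiv U C F t).injective
  rw [map_zsmul, h1, map_zero]

end main

end Vale.Agent.P261
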